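import Crest.Agent.R165.A.RepG
import Crest.Agent.R165.A.Ising
import Crest.Agent.R165.A.Gks

/-! # R165 block A: Ising model = contour sum = Gaussian Grassmann integral (owner helper66).
The public statements are in `A/Hat` (`hat_congr`, `hat_mul`, `prod_mul_hat`), `A/SB` (`sB_dependsOn`, `sB_nOf`), `A/Sign` (`gauss_contour`),
`A/RepG` (`rep_general`), `A/Zc` (`Zc_flip`, `Zc_gauge`, `Zc_ne_zero`, `Zc_sq`), `A/Ising` (`ising_plus`, `ising_free`, `exp_critical`), `A/Gks` (`gks`). -/
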